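/-
Row 314 (S0570), block T, package DG, file 2: THE ABSTRACT THICKENING.      Architect + prover: helper62 (chief: helper129).      Prefix `dg_`.      Mathlib + `DG/Euc` only; no Riemannian vocabulary.

 DATA   `X ⊆ O ⊆ V`, `O` open, `π : O → X` a continuous retraction, `Pn x : V →L V` (`x ∈ X`) continuous in `x`, idempotent, of norm `≤ 1` ("normal projection"), `Pn (π y) (y - π y) = y - π y`;
        `K' ⊆ X`, `r > 0` with  `x ∈ K'`, `Pn x v = v`, `‖v‖ ≤ r`  ⟹  `x + v ∈ O`, `π (x + v) = x`;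
        `ρ : X → ℝ` continuous, `D = {x ∈ X | ρ x ≤ R}` compact, `D ⊆ K'`;      `H : D × [0,1] → K'` continuous, `H (x, 0) = x`, `H (x, t) ≠ q` if `ρ x = R`;   `q ∈ X`, `ρ q < R`.
 `dg_abs` : `∃ x ∈ D, H (x, 1) = q`.
 Proof: `Ω = {y ∈ O | ‖y - π y‖ < r, ρ (π y) < R}`,  `Ĥ (y, t) = H (π y, t) + T (π y, t) (y - π y)`,  `T (x, t) = ∏_{j = m..0} Pn (H (x, min t (j/m)))` (`dgT`), injective on the normal space at `x`;  `dg_euc`.
-/
import Claimed.Agent.R314.DG.Euc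

set_option autoImplicit false
set_option linter.unusedSectionVars false

namespace Claimed.Agent.R314

open Set Metric Filter Topology

variable {V : Type} [NormedAddCommGroup V] [InnerProductSpace ℝ V] [FiniteDimensional ℝ V]

/-! ## 1. the transport of the normal vectors -/

/-- the product of the projections `A (x, min t (j/m))`, `j = k, .., 0` -/
noncomputable def dgT (A : V × ℝ → V →L[ℝ] V) (m : ℕ) : ℕ → V × ℝ → V →L[ℝ] V
  | 0, z => A (z.1, min z.2 0)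
  | k + 1, z => (A (z.1, min z.2 (((k + 1 : ℕ) : ℝ) / m))).comp (dgT A m k z)

theorem dg_forced : True := by
  have := @dgT.eq_1
  have := @dgT.eq_2
  have := @dgT.eq_def
  trivial

section T

variable {A : V × ℝ → V →L[ℝ] V} {D : Set V} {m : ℕ}

theorem dg_min_mem {t c : ℝ} (ht : t ∈ Icc (0 : ℝ) 1) (hc : 0 ≤ c) : min t c ∈ Icc (0 : ℝ) 1 :=
  ⟨le_min ht.1 hc, (min_le_left _ _).trans ht.2⟩

theorem dg_A_cont (hAc : ContinuousOn A (D ×ˢ Icc (0 : ℝ) 1)) {c : ℝ} (hc : 0 ≤ c) :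
    ContinuousOn (fun z : V × ℝ => A (z.1, min z.2 c)) (D ×ˢ Icc (0 : ℝ) 1) :=
  hAc.comp (continuous_fst.prodMk (continuous_snd.min continuous_const)).continuousOn
    fun _ hz => ⟨hz.1, dg_min_mem hz.2 hc⟩

theorem dg_T_cont (hAc : ContinuousOn A (D ×ˢ Icc (0 : ℝ) 1)) (k : ℕ) :
    ContinuousOn (dgT A m k) (D ×ˢ Icc (0 : ℝ) 1) := by
  induction k with
  | zero => exact dg_A_cont hAc le_rfl
  | succ k ih => exact (dg_A_cont hAc (by positivity)).clm_comp ih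

theorem dg_T_norm (hAn : ∀ z ∈ D ×ˢ Icc (0 : ℝ) 1, ∀ v, ‖A z v‖ ≤ ‖v‖) (k : ℕ) {z : V × ℝ}
    (hz : z ∈ D ×ˢ Icc (0 : ℝ) 1) (v : V) : ‖dgT A m k z v‖ ≤ ‖v‖ := by
  induction k with
  | zero => exact hAn (z.1, min z.2 0) ⟨hz.1, dg_min_mem hz.2 le_rfl⟩ v
  | succ k ih =>
    exact (hAn (z.1, min z.2 (((k + 1 : ℕ) : ℝ) / m)) ⟨hz.1, dg_min_mem hz.2 (by positivity)⟩ _).trans ih

/-- the values lie in the range of the last projection -/
theorem dg_T_range (hAi : ∀ z ∈ D ×ˢ Icc (0 : ℝ) 1, ∀ v, A z (A z v) = A z v) (k : ℕ) {z : V × ℝ}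
    (hz : z ∈ D ×ˢ Icc (0 : ℝ) 1) (v : V) :
    A (z.1, min z.2 ((k : ℝ) / m)) (dgT A m k z v) = dgT A m k z v := by
  cases k with
  | zero =>
    show A (z.1, min z.2 (((0 : ℕ) : ℝ) / m)) (A (z.1, min z.2 0) v) = A (z.1, min z.2 0) v
    rw [Nat.cast_zero, zero_div]
    exact hAi (z.1, min z.2 0) ⟨hz.1, dg_min_mem hz.2 le_rfl⟩ v
  | succ k => exact hAi (z.1, min z.2 (((k + 1 : ℕ) : ℝ) / m)) ⟨hz.1, dg_min_mem hz.2 (by positivity)⟩ _

theorem dg_T_zero (k : ℕ) {x v : V} (hv : A (x, 0) v = v) : dgT A m k (x, 0) v = v := by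
  induction k with
  | zero =>
    show A (x, min 0 0) v = v
    rw [min_self]
    exact hv
  | succ k ih =>
    show A (x, min 0 (((k + 1 : ℕ) : ℝ) / m)) (dgT A m k (x, 0) v) = v
    rw [ih, min_eq_left (by positivity)]
    exact hv

theorem dg_min_sub (t : ℝ) {a b : ℝ} (hab : a ≤ b) : |min t b - min t a| ≤ b - a := by
  rcases le_total t a with h | h
  · rw [min_eq_left h, min_eq_left (h.trans hab), sub_self, abs_zero]
    linarith
  · rw [min_eq_right h]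
    rcases le_total t b with h' | h'
    · rw [min_eq_left h', abs_of_nonneg (by linarith)]
      linarith
    · rw [min_eq_right h', abs_of_nonneg (by linarith)]

/-- **injectivity on the normal space** -/
theorem dg_T_lower (hAi : ∀ z ∈ D ×ˢ Icc (0 : ℝ) 1, ∀ v, A z (A z v) = A z v)
    (hm : ∀ x ∈ D, ∀ s ∈ Icc (0 : ℝ) 1, ∀ t ∈ Icc (0 : ℝ) 1, |s - t| ≤ 1 / m → ‖A (x, s) - A (x, t)‖ ≤ 1 / 2) (k : ℕ)
    {z : V × ℝ} (hz : z ∈ D ×ˢ Icc (0 : ℝ) 1) {v : V} (hv : A (z.1, 0) v = v) : ‖v‖ ≤ 2 ^ k * ‖dgT A m k z v‖ := by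
  induction k with
  | zero =>
    show ‖v‖ ≤ 2 ^ 0 * ‖A (z.1, min z.2 0) v‖
    rw [min_eq_right hz.2.1, hv, pow_zero, one_mul]
  | succ k ih =>
    set w := dgT A m k z v with hw
    have h1 : A (z.1, min z.2 ((k : ℝ) / m)) w = w := dg_T_range hAi k hz v
    have h2 : ‖A (z.1, min z.2 (((k + 1 : ℕ) : ℝ) / m)) - A (z.1, min z.2 ((k : ℝ) / m))‖ ≤ 1 / 2 := by
      refine hm z.1 hz.1 _ (dg_min_mem hz.2 (by positivity)) _ (dg_min_mem hz.2 (by positivity)) ?_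
      have h3 : (k : ℝ) / m ≤ ((k + 1 : ℕ) : ℝ) / m := by
        apply div_le_div_of_nonneg_right _ (Nat.cast_nonneg m)
        push_cast
        linarith
      refine (dg_min_sub z.2 h3).trans (le_of_eq ?_)
      push_cast
      ring
    have h4 : ‖w‖ ≤ 2 * ‖A (z.1, min z.2 (((k + 1 : ℕ) : ℝ) / m)) w‖ := by
      have h5 : ‖(A (z.1, min z.2 (((k + 1 : ℕ) : ℝ) / m)) - A (z.1, min z.2 ((k : ℝ) / m))) w‖ ≤ 1 / 2 * ‖w‖ :=
        (ContinuousLinearMap.le_opNorm _ _).trans (mul_le_mul_of_nonneg_right h2 (norm_nonneg _))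
      rw [sub_apply, h1] at h5
      have h6 : ‖w‖ ≤ ‖A (z.1, min z.2 (((k + 1 : ℕ) : ℝ) / m)) w‖ + ‖A (z.1, min z.2 (((k + 1 : ℕ) : ℝ) / m)) w - w‖ := by
        have := norm_sub_le (A (z.1, min z.2 (((k + 1 : ℕ) : ℝ) / m)) w) (A (z.1, min z.2 (((k + 1 : ℕ) : ℝ) / m)) w - w)
        simpa using this
      linarith
    show ‖v‖ ≤ 2 ^ (k + 1) * ‖A (z.1, min z.2 (((k + 1 : ℕ) : ℝ) / m)) w‖
    calc ‖v‖ ≤ 2 ^ k * ‖w‖ := ih
      _ ≤ 2 ^ k * (2 * ‖A (z.1, min z.2 (((k + 1 : ℕ) : ℝ) / m)) w‖) := by gcongr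
      _ = _ := by ring

/-- the mesh -/
theorem dg_exists_mesh (hD : IsCompact D) (hAc : ContinuousOn A (D ×ˢ Icc (0 : ℝ) 1)) :
    ∃ m : ℕ, 0 < m ∧ ∀ x ∈ D, ∀ s ∈ Icc (0 : ℝ) 1, ∀ t ∈ Icc (0 : ℝ) 1, |s - t| ≤ 1 / m → ‖A (x, s) - A (x, t)‖ ≤ 1 / 2 := by
  have hu := (hD.prod (isCompact_Icc (a := (0 : ℝ)) (b := 1))).uniformContinuousOn_of_continuous hAc
  rw [Metric.uniformContinuousOn_iff] at hu
  obtain ⟨δ, hδ, h⟩ := hu (1 / 2) (by norm_num)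
  obtain ⟨m, hm⟩ := exists_nat_one_div_lt hδ
  refine ⟨m + 1, Nat.succ_pos m, fun x hx s hs t ht hst => ?_⟩
  have h1 : dist ((x, s) : V × ℝ) (x, t) < δ := by
    rw [Prod.dist_eq, dist_self, Real.dist_eq, max_eq_right (abs_nonneg _)]
    push_cast at hst
    exact lt_of_le_of_lt hst hm
  have := h (x, s) ⟨hx, hs⟩ (x, t) ⟨hx, ht⟩ h1
  rw [dist_eq_norm] at this
  exact this.le

end T

/-! ## 2. the thickening -/

/-- **the abstract form of DG** -/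
theorem dg_abs (X O : Set V) (π : V → V) (Pn : V → V →L[ℝ] V) (hO : IsOpen O) (hXO : X ⊆ O) (hπc : ContinuousOn π O)
    (hπm : MapsTo π O X) (hπX : ∀ x ∈ X, π x = x) (hPc : ContinuousOn Pn X) (hPi : ∀ x ∈ X, ∀ v, Pn x (Pn x v) = Pn x v)
    (hPn : ∀ x ∈ X, ∀ v, ‖Pn x v‖ ≤ ‖v‖) (hPπ : ∀ y ∈ O, Pn (π y) (y - π y) = y - π y)
    (K' : Set V) (hK'X : K' ⊆ X) (r : ℝ) (hr : 0 < r)
    (hK' : ∀ x ∈ K', ∀ v, Pn x v = v → ‖v‖ ≤ r → x + v ∈ O ∧ π (x + v) = x)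
    (ρ : V → ℝ) (hρ : ContinuousOn ρ X) (R : ℝ) (D : Set V) (hD : D = {x | x ∈ X ∧ ρ x ≤ R}) (hDc : IsCompact D)
    (hDK : D ⊆ K') (H : V × ℝ → V) (hH : ContinuousOn H (D ×ˢ Icc (0 : ℝ) 1)) (hHm : MapsTo H (D ×ˢ Icc (0 : ℝ) 1) K')
    (hH0 : ∀ x ∈ D, H (x, 0) = x) (q : V) (hqX : q ∈ X) (hqR : ρ q < R)
    (hbd : ∀ x ∈ D, ρ x = R → ∀ t ∈ Icc (0 : ℝ) 1, H (x, t) ≠ q) : ∃ x ∈ D, H (x, 1) = q := by
  have hDX : D ⊆ X := hDK.trans hK'X
  -- the projections along the homotopy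
  set A : V × ℝ → V →L[ℝ] V := fun z => Pn (H z) with hA
  have hAc : ContinuousOn A (D ×ˢ Icc (0 : ℝ) 1) := hPc.comp hH fun z hz => hK'X (hHm hz)
  have hAi : ∀ z ∈ D ×ˢ Icc (0 : ℝ) 1, ∀ v, A z (A z v) = A z v := fun z hz v => hPi _ (hK'X (hHm hz)) v
  have hAn : ∀ z ∈ D ×ˢ Icc (0 : ℝ) 1, ∀ v, ‖A z v‖ ≤ ‖v‖ := fun z hz v => hPn _ (hK'X (hHm hz)) v
  obtain ⟨m, hm0, hm⟩ := dg_exists_mesh hDc hAc
  -- the closed tube
  set S : Set (V × V) := (D ×ˢ closedBall (0 : V) r) ∩ (fun p : V × V => Pn p.1 p.2 - p.2) ⁻¹' {0} with hS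
  have hSc : IsCompact S := by
    have hK : IsCompact (D ×ˢ closedBall (0 : V) r) := hDc.prod (isCompact_closedBall 0 r)
    have hc : ContinuousOn (fun p : V × V => Pn p.1 p.2 - p.2) (D ×ˢ closedBall (0 : V) r) := by
      refine ContinuousOn.sub (ContinuousOn.clm_apply ?_ continuous_snd.continuousOn) continuous_snd.continuousOn
      exact hPc.comp continuous_fst.continuousOn fun p hp => hDX hp.1
    exact hK.of_isClosed_subset (hc.preimage_isClosed_of_isClosed hK.isClosed isClosed_singleton) inter_subset_left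
  set Tb : Set V := (fun p : V × V => p.1 + p.2) '' S with hTb
  have hTbc : IsCompact Tb := hSc.image (continuous_fst.add continuous_snd)
  have hTbP : ∀ y ∈ Tb, y ∈ O ∧ π y ∈ D ∧ ‖y - π y‖ ≤ r := by
    rintro _ ⟨⟨x, v⟩, ⟨⟨hx, hv⟩, hxv⟩, rfl⟩
    have hv' : ‖v‖ ≤ r := by simpa using hv
    have hxv' : Pn x v = v := sub_eq_zero.1 hxv
    obtain ⟨h1, h2⟩ := hK' x (hDK hx) v hxv' hv'
    refine ⟨h1, ?_, ?_⟩
    · show π (x + v) ∈ D
      rw [h2]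
      exact hx
    · show ‖x + v - π (x + v)‖ ≤ r
      rw [h2, add_sub_cancel_left]
      exact hv'
  -- the open tube
  set Ω : Set V := O ∩ (fun y => (‖y - π y‖, ρ (π y))) ⁻¹' (Iio r ×ˢ Iio R) with hΩ
  have hΩo : IsOpen Ω := by
    refine ContinuousOn.isOpen_inter_preimage ?_ hO (isOpen_Iio.prod isOpen_Iio)
    exact ((continuous_id.continuousOn.sub hπc).norm).prodMk (hρ.comp hπc hπm)
  have hΩTb : Ω ⊆ Tb := by
    rintro y ⟨hy, h1, h2⟩
    have h1' : ‖y - π y‖ < r := h1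
    have h2' : ρ (π y) < R := h2
    refine ⟨(π y, y - π y), ⟨⟨?_, ?_⟩, ?_⟩, ?_⟩
    · show π y ∈ D
      rw [hD]
      exact ⟨hπm hy, h2'.le⟩
    · show y - π y ∈ closedBall (0 : V) r
      simpa using h1'.le
    · show Pn (π y) (y - π y) - (y - π y) = 0
      rw [hPπ y hy, sub_self]
    · show π y + (y - π y) = y
      abel
  have hclTb : closure Ω ⊆ Tb := closure_minimal hΩTb hTbc.isClosed
  have hΩb : Bornology.IsBounded Ω := hTbc.isBounded.subset hΩTb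
  have hqΩ : q ∈ Ω := by
    refine ⟨hXO hqX, ?_, ?_⟩
    · show ‖q - π q‖ < r
      rw [hπX q hqX, sub_self, norm_zero]
      exact hr
    · show ρ (π q) < R
      rw [hπX q hqX]
      exact hqR
  -- the thickened homotopy
  set Hh : V × ℝ → V := fun z => H (π z.1, z.2) + dgT A m m (π z.1, z.2) (z.1 - π z.1) with hHh
  have hmap : MapsTo (fun z : V × ℝ => (π z.1, z.2)) (Tb ×ˢ Icc (0 : ℝ) 1) (D ×ˢ Icc (0 : ℝ) 1) :=
    fun z hz => ⟨(hTbP z.1 hz.1).2.1, hz.2⟩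
  have hπ1 : ContinuousOn (fun z : V × ℝ => π z.1) (Tb ×ˢ Icc (0 : ℝ) 1) :=
    hπc.comp continuous_fst.continuousOn fun z hz => (hTbP z.1 hz.1).1
  have hpc : ContinuousOn (fun z : V × ℝ => (π z.1, z.2)) (Tb ×ˢ Icc (0 : ℝ) 1) := hπ1.prodMk continuous_snd.continuousOn
  have hHhc : ContinuousOn Hh (Tb ×ˢ Icc (0 : ℝ) 1) :=
    (hH.comp hpc hmap).add (((dg_T_cont hAc m).comp hpc hmap).clm_apply (continuous_fst.continuousOn.sub hπ1))
  -- where the thickened homotopy meets `q`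
  have hmeet : ∀ y ∈ Tb, ∀ t ∈ Icc (0 : ℝ) 1, Hh (y, t) = q → H (π y, t) = q ∧ y - π y = 0 := by
    intro y hy t ht hyt
    obtain ⟨hyO, hyD, hyr⟩ := hTbP y hy
    have hz : ((π y, t) : V × ℝ) ∈ D ×ˢ Icc (0 : ℝ) 1 := ⟨hyD, ht⟩
    set v' := dgT A m m (π y, t) (y - π y) with hv'
    have h1 : Pn (H (π y, t)) v' = v' := by
      have := dg_T_range (m := m) hAi m hz (y - π y)
      rw [div_self (Nat.cast_ne_zero.2 hm0.ne'), min_eq_left ht.2] at this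
      exact this
    have h2 : ‖v'‖ ≤ r := (dg_T_norm hAn m hz _).trans hyr
    obtain ⟨-, h3⟩ := hK' _ (hHm hz) v' h1 h2
    have h4 : H (π y, t) + v' = q := hyt
    rw [h4, hπX q hqX] at h3
    have h5 : v' = 0 := by
      rw [← h3] at h4
      simpa using h4
    refine ⟨h3.symm, ?_⟩
    have h6 : A (π y, 0) (y - π y) = y - π y := by
      show Pn (H (π y, 0)) (y - π y) = y - π y
      rw [hH0 _ hyD]
      exact hPπ y hyO
    have h7 := dg_T_lower (m := m) hAi hm m hz h6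
    rw [← hv', h5, norm_zero, mul_zero] at h7
    exact norm_le_zero_iff.1 h7
  obtain ⟨y, hy, hy1⟩ := dg_euc Ω hΩo hΩb q hqΩ Hh (hHhc.mono (prod_mono hclTb le_rfl))
    (fun y hy => by
      obtain ⟨hyO, hyD, -⟩ := hTbP y (hclTb hy)
      have h6 : A (π y, 0) (y - π y) = y - π y := by
        show Pn (H (π y, 0)) (y - π y) = y - π y
        rw [hH0 _ hyD]
        exact hPπ y hyO
      show H (π y, 0) + dgT A m m (π y, 0) (y - π y) = y
      rw [dg_T_zero m h6, hH0 _ hyD]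
      abel)
    (fun y hy t ht hyt => by
      have hyT := hclTb hy.1
      obtain ⟨hyO, hyD, hyr⟩ := hTbP y hyT
      obtain ⟨h1, h2⟩ := hmeet y hyT t ht hyt
      have hnot : y ∉ Ω := by
        have := hy.2
        rwa [hΩo.interior_eq] at this
      have hρR : ρ (π y) = R := by
        have h3 : ρ (π y) ≤ R := by
          rw [hD] at hyD
          exact hyD.2
        refine le_antisymm h3 (not_lt.1 fun h4 => hnot ⟨hyO, ?_, h4⟩)
        show ‖y - π y‖ < r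
        rw [h2, norm_zero]
        exact hr
      exact hbd _ hyD hρR t ht h1)
  exact ⟨π y, (hTbP y (hclTb hy)).2.1, (hmeet y (hclTb hy) 1 ⟨zero_le_one, le_rfl⟩ hy1).1⟩

end Claimed.Agent.R314
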