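/-
Row 314 (S0570), block T, package DG, file 1: THE EUCLIDEAN CORE.      Architect + prover: helper62 (chief: helper129).      Prefix `dg_`.      Mathlib + `Lib/BfpCor` only.

 `dg_euc` : `V` a finite dimensional real inner product space, `Ω ⊆ V` open and bounded, `q ∈ Ω`, `Hh : V × ℝ → V` continuous on `closure Ω ×ˢ [0,1]`, `Hh (y, 0) = y`,
            `Hh (y, t) ≠ q` for `y ∈ frontier Ω`, `t ∈ [0,1]`      ==>      `∃ y ∈ closure Ω, Hh (y, 1) = q`.
 Proof: collar trick `Φ y = Hh (y, min 1 (dist (y, Ωᶜ) / δ))` on `closure Ω`, `Φ = id` outside `Ω`;  `Φ - q` points outward on a large sphere around `q` (`bfp_zero_of_inner_nonneg`).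
-/
import Claimed.Agent.Lib.BfpCor

set_option autoImplicit false

namespace Claimed.Agent.R314

open Set Metric Filter Topology
open scoped RealInnerProductSpace

variable {V : Type*} [NormedAddCommGroup V] [InnerProductSpace ℝ V] [FiniteDimensional ℝ V]

/-- a continuous map of `V` that is the identity outside a bounded set is onto -/
theorem dg_onto_of_id_outside (Φ : V → V) (hΦ : Continuous Φ) (B : Set V) (hB : Bornology.IsBounded B)
    (hid : ∀ y, y ∉ B → Φ y = y) (q : V) : ∃ y, Φ y = q := by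
  obtain ⟨R, hR⟩ := hB.subset_closedBall q
  have hR1 : 0 < max R 0 + 1 := by positivity
  obtain ⟨x, -, hx⟩ := Claimed.Agent.Lib.bfp_zero_of_inner_nonneg hR1 (fun x => Φ (q + x) - q)
    ((hΦ.comp (continuous_const.add continuous_id)).sub continuous_const).continuousOn (fun x hx => by
      have hnot : q + x ∉ B := fun h => by
        have h1 := hR h
        rw [mem_closedBall, dist_eq_norm, add_sub_cancel_left, hx] at h1
        have := le_max_left R 0
        linarith
      show 0 ≤ ⟪Φ (q + x) - q, x⟫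
      rw [hid _ hnot, add_sub_cancel_left]
      exact real_inner_self_nonneg)
  exact ⟨q + x, sub_eq_zero.1 hx⟩

/-- **the Euclidean core of DG** -/
theorem dg_euc (Ω : Set V) (hΩ : IsOpen Ω) (hb : Bornology.IsBounded Ω) (q : V) (hq : q ∈ Ω) (Hh : V × ℝ → V)
    (hc : ContinuousOn Hh (closure Ω ×ˢ Icc (0 : ℝ) 1)) (h0 : ∀ y ∈ closure Ω, Hh (y, 0) = y)
    (hfr : ∀ y ∈ frontier Ω, ∀ t ∈ Icc (0 : ℝ) 1, Hh (y, t) ≠ q) : ∃ y ∈ closure Ω, Hh (y, 1) = q := by
  -- the degenerate case
  rcases subsingleton_or_nontrivial V with hV | hV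
  · exact ⟨q, subset_closure hq, Subsingleton.elim _ _⟩
  have hne : (Ωᶜ).Nonempty := by
    by_contra h
    rw [not_nonempty_iff_eq_empty, compl_empty_iff] at h
    rw [h] at hb
    exact NormedSpace.unbounded_univ ℝ V hb
  have hcl : IsCompact (closure Ω) := hb.isCompact_closure
  -- the set of the points that meet `q`
  set Z : Set V := Prod.fst '' ((closure Ω ×ˢ Icc (0 : ℝ) 1) ∩ Hh ⁻¹' {q}) with hZ
  have hZc : IsCompact Z := by
    refine IsCompact.image ?_ continuous_fst
    have hK : IsCompact (closure Ω ×ˢ Icc (0 : ℝ) 1) := hcl.prod isCompact_Icc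
    exact hK.of_isClosed_subset (hc.preimage_isClosed_of_isClosed hK.isClosed isClosed_singleton) inter_subset_left
  have hZΩ : Z ⊆ Ω := by
    rintro _ ⟨⟨y, t⟩, ⟨⟨hy, ht⟩, hyt⟩, rfl⟩
    by_contra hn
    exact hfr y ⟨hy, by rwa [hΩ.interior_eq]⟩ t ht hyt
  obtain ⟨δ, hδ, hthick⟩ := hZc.exists_thickening_subset_open hΩ hZΩ
  have hdist : ∀ y ∈ Z, δ ≤ infDist y Ωᶜ := by
    intro y hy
    by_contra hlt
    rw [not_le] at hlt
    obtain ⟨z, hz, hyz⟩ := (infDist_lt_iff hne).1 hlt
    exact hz (hthick (mem_thickening_iff.2 ⟨y, hy, by rwa [dist_comm]⟩))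
  -- the collar function
  set s : V → ℝ := fun y => min 1 (infDist y Ωᶜ / δ) with hs
  have hsc : Continuous s := continuous_const.min ((continuous_infDist_pt _).div_const _)
  have hs01 : ∀ y, s y ∈ Icc (0 : ℝ) 1 := fun y =>
    ⟨le_min zero_le_one (div_nonneg infDist_nonneg hδ.le), min_le_left _ _⟩
  have hs0 : ∀ y, y ∉ Ω → s y = 0 := fun y hy => by
    have : infDist y Ωᶜ = 0 := infDist_zero_of_mem hy
    simp [hs, this]
  classical
  set Φ : V → V := fun y => if y ∈ Ω then Hh (y, s y) else y with hΦ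
  have hΦc : Continuous Φ := by
    have h1 : ContinuousOn (fun y => Hh (y, s y)) (closure Ω) :=
      hc.comp (continuous_id.prodMk hsc).continuousOn fun y hy => ⟨hy, hs01 y⟩
    refine continuous_if ?_ h1 continuous_id.continuousOn
    intro y hy
    have hy2 : y ∈ frontier Ω := hy
    have hy' : y ∉ Ω := fun h => by
      have := hy2.2
      rw [hΩ.interior_eq] at this
      exact this h
    rw [hs0 y hy', h0 y hy2.1]
  obtain ⟨y, hy⟩ := dg_onto_of_id_outside Φ hΦc Ω hb (fun y hy => if_neg hy) q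
  have hyΩ : y ∈ Ω := by
    by_contra h
    rw [hΦ] at hy
    simp only [if_neg h] at hy
    exact h (hy ▸ hq)
  have hy2 : Hh (y, s y) = q := by
    rw [hΦ] at hy
    simpa only [if_pos hyΩ] using hy
  have hyZ : y ∈ Z := ⟨(y, s y), ⟨⟨subset_closure hyΩ, hs01 y⟩, hy2⟩, rfl⟩
  have hs1 : s y = 1 := by
    have := hdist y hyZ
    have h1 : 1 ≤ infDist y Ωᶜ / δ := by rwa [le_div_iff₀ hδ, one_mul]
    exact min_eq_left h1
  exact ⟨y, subset_closure hyΩ, hs1 ▸ hy2⟩

end Claimed.Agent.R314
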