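/-
Row 314 (S0570), block T, package DG, file 3: DG IN THE LANGUAGE OF ROW 315.      Architect + prover: helper62 (chief: helper129).      Prefix `dg_`.

 `DgTub X`    = the exports of TUB (helper256, `R314/Tub`) as ONE proposition: normal projections `Pn`, open `O ⊇ X`, continuous nearest point retraction `π : O → X`, uniform radius on compact sets.
 `dg_of_tub`  : **(DG)**  `X` closed connected proper `n`-manifold with `DgTub X`,  `H : cb X g x0 R × [0,1] → X` continuous, `H (x, 0) = x`, `rdist X g x (H (x, t)) ≤ C3`, `0 ≤ C3`,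
                `rdist X g x0 q + C3 < R`     ==>     `∃ x ∈ cb X g x0 R, H (x, 1) = q`.
 (`0 ≤ C3` is needed: for `R < 0` the ball is empty and all other hypotheses are void.)
-/
import Claimed.Agent.R314.Defs
import Claimed.Agent.R314.DG.Abs

set_option autoImplicit false

open Set Claimed.Agent.R315

namespace Claimed.Agent.R314

/-- the exports of TUB -/
def DgTub {V : Type} [NormedAddCommGroup V] [InnerProductSpace ℝ V] (X : Set V) : Prop :=
  ∃ (Pn : V → V →L[ℝ] V) (O : Set V) (π : V → V),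
    ContinuousOn Pn X ∧ (∀ x ∈ X, ∀ v, Pn x (Pn x v) = Pn x v) ∧ (∀ x ∈ X, ∀ v, ‖Pn x v‖ ≤ ‖v‖) ∧
    IsOpen O ∧ X ⊆ O ∧ ContinuousOn π O ∧ MapsTo π O X ∧ (∀ x ∈ X, π x = x) ∧
    (∀ y ∈ O, Pn (π y) (y - π y) = y - π y) ∧
    ∀ K : Set V, IsCompact K → K ⊆ X → ∃ r : ℝ, 0 < r ∧ ∀ x ∈ K, ∀ v, Pn x v = v → ‖v‖ ≤ r → x + v ∈ O ∧ π (x + v) = x

theorem dg_forced2 : True := by
  have := @DgTub.eq_1
  have := @DgTub.eq_def
  trivial

variable {n N : ℕ} {X : Set (E N)} {g : Ten (E N)}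

/-- **(DG)** from the exports of TUB -/
theorem dg_of_tub (hT : DgTub X) (hM : IsMfd n X) (hconn : IsPreconnected X) (hg : IsMetricOn n X g)
    (hp : IsProperOn X g) {x0 q : E N} (hx0 : x0 ∈ X) (hq : q ∈ X) {R C3 : ℝ} (hC3 : 0 ≤ C3) (H : E N × ℝ → E N)
    (hH : ContinuousOn H (cb X g x0 R ×ˢ Icc (0 : ℝ) 1)) (hHm : MapsTo H (cb X g x0 R ×ˢ Icc (0 : ℝ) 1) X)
    (hH0 : ∀ x ∈ cb X g x0 R, H (x, 0) = x)
    (hd : ∀ x ∈ cb X g x0 R, ∀ t ∈ Icc (0 : ℝ) 1, rdist X g x (H (x, t)) ≤ C3) (hqR : rdist X g x0 q + C3 < R) :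
    ∃ x ∈ cb X g x0 R, H (x, 1) = q := by
  obtain ⟨Pn, O, π, hPc, hPi, hPn, hO, hXO, hπc, hπm, hπX, hPπ, hrad⟩ := hT
  have hten : IsTenOn n X g := fun ψ U h => (hg ψ U h).1
  obtain ⟨r, hr, hK'⟩ := hrad (cb X g x0 (R + C3)) (hp x0 hx0 _) fun x hx => hx.1
  have habs := fun {y y' : E N} (hy : y ∈ X) (hy' : y' ∈ X) => if_abs_rdist_sub_le hM hconn hten hx0 hy hy'
  refine dg_abs X O π Pn hO hXO hπc hπm hπX hPc hPi hPn hPπ (cb X g x0 (R + C3)) (fun x hx => hx.1) r hr hK'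
    (rdist X g x0) (if_rdist_continuousOn hM hconn hten hx0) R (cb X g x0 R) rfl (hp x0 hx0 R)
    (fun x hx => ⟨hx.1, hx.2.trans (by linarith)⟩) H hH (fun z hz => ?_) hH0 q hq (by linarith) fun x hx hxR t ht he => ?_
  · have h1 := hHm hz
    have h2 := abs_le.1 (habs hz.1.1 h1)
    have h3 := hd z.1 hz.1 z.2 hz.2
    have h4 : rdist X g x0 z.1 ≤ R := hz.1.2
    exact ⟨h1, by linarith [h2.2]⟩
  · have h1 : H (x, t) ∈ X := hHm ⟨hx, ht⟩
    have h2 := abs_le.1 (habs hx.1 h1)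
    have h3 := hd x hx t ht
    rw [he] at h2 h3
    linarith [h2.1]

end Claimed.Agent.R314
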