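/-
Row 314 (S0570), block T, package DG, file 4: THE NORMAL PROJECTION.      Architect + prover: helper62 (chief: helper129).      Prefix `dg_`.

 `dgPn n X x`   = orthogonal projection of `E N` onto the orthogonal complement of the tangent vectors `if_Tan n X x`.
 `dg_Pn_idem`, `dg_Pn_norm_le`, `dg_Pn_eq_iff` (`dgPn n X x v = v ↔ v ⟂ if_Tan n X x`).
 `dg_gram`      : the Gram formula: the orthogonal projection onto the range of an injective `A` is `A (A* A)⁻¹ A*`.
 `dg_Pn_cont`   : `IsMfd n X → ContinuousOn (dgPn n X) X`.
-/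
import Claimed.Agent.R314.Defs

set_option autoImplicit false

open Set Claimed.Agent.R315
open scoped Topology ContDiff

namespace Claimed.Agent.R314

variable {n N : ℕ}

/-- orthogonal projection onto the normal space of `X` at `x` -/
noncomputable def dgPn (n : ℕ) {N : ℕ} (X : Set (E N)) (x : E N) : E N →L[ℝ] E N :=
  (Submodule.span ℝ (if_Tan n X x))ᗮ.starProjection

theorem dg_forced3 : True := by
  have := @dgPn.eq_1
  have := @dgPn.eq_def
  trivial

theorem dg_Pn_idem (X : Set (E N)) (x v : E N) : dgPn n X x (dgPn n X x v) = dgPn n X x v :=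
  Submodule.starProjection_eq_self_iff.2 (Submodule.starProjection_apply_mem _ _)

theorem dg_Pn_norm_le (X : Set (E N)) (x v : E N) : ‖dgPn n X x v‖ ≤ ‖v‖ :=
  Submodule.norm_starProjection_apply_le _ _

theorem dg_Pn_eq_iff (X : Set (E N)) (x v : E N) :
    dgPn n X x v = v ↔ ∀ w ∈ if_Tan n X x, inner ℝ v w = 0 := by
  unfold dgPn
  rw [Submodule.starProjection_eq_self_iff, Submodule.mem_orthogonal']
  constructor
  · intro h w hw
    exact h w (Submodule.subset_span hw)
  · intro h w hw
    induction hw using Submodule.span_induction with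
    | mem w hw => exact h w hw
    | zero => exact inner_zero_right _
    | add a b _ _ ha hb => rw [inner_add_right, ha, hb, add_zero]
    | smul c a _ ha => rw [inner_smul_right, ha, mul_zero]

/-- the Gram operator of an injective map is invertible -/
theorem dg_gram_unit {A : E n →L[ℝ] E N} (hA : Function.Injective A) :
    IsUnit ((ContinuousLinearMap.adjoint A).comp A) := by
  rw [ContinuousLinearMap.isUnit_iff_bijective]
  have hinj : Function.Injective ((ContinuousLinearMap.adjoint A).comp A) := by
    rw [injective_iff_map_eq_zero]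
    intro a ha
    have h1 : inner ℝ (A a) (A a) = (0 : ℝ) := by
      rw [← ContinuousLinearMap.adjoint_inner_left]
      have : (ContinuousLinearMap.adjoint A) (A a) = 0 := ha
      rw [this, inner_zero_left]
    have h2 : A a = 0 := inner_self_eq_zero.1 h1
    exact hA (by rw [h2, map_zero])
  exact ⟨hinj, (LinearMap.injective_iff_surjective
    (f := (((ContinuousLinearMap.adjoint A).comp A : E n →L[ℝ] E n) : E n →ₗ[ℝ] E n))).1 hinj⟩

/-- **the Gram formula** -/
theorem dg_gram {A : E n →L[ℝ] E N} (hA : Function.Injective A) (K : Submodule ℝ (E N))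
    (hK : ∀ v, v ∈ K ↔ ∃ a, v = A a) :
    K.starProjection = A.comp ((Ring.inverse ((ContinuousLinearMap.adjoint A).comp A)).comp
      (ContinuousLinearMap.adjoint A)) := by
  have hu := dg_gram_unit hA
  ext1 v
  apply Submodule.eq_starProjection_of_mem_of_inner_eq_zero
  · exact (hK _).2 ⟨_, rfl⟩
  · intro w hw
    obtain ⟨b, rfl⟩ := (hK w).1 hw
    rw [← ContinuousLinearMap.adjoint_inner_left, map_sub]
    have h1 : (ContinuousLinearMap.adjoint A) ((A.comp ((Ring.inverse ((ContinuousLinearMap.adjoint A).comp A)).comp
        (ContinuousLinearMap.adjoint A))) v) =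
        (((ContinuousLinearMap.adjoint A).comp A) * Ring.inverse ((ContinuousLinearMap.adjoint A).comp A))
          ((ContinuousLinearMap.adjoint A) v) := rfl
    rw [h1, Ring.mul_inverse_cancel _ hu]
    simp

/-- **continuity of the normal projection** -/
theorem dg_Pn_cont {X : Set (E N)} (hM : IsMfd n X) : ContinuousOn (dgPn n X) X := by
  intro x hx
  obtain ⟨ψ, U, h, hxU⟩ := hM x hx
  obtain ⟨hU, hs, -, -, ⟨O, hO, hOe⟩, -⟩ := id h
  set A : E n → E n →L[ℝ] E N := fun u => fderiv ℝ ψ u with hAdef
  have hAc : ContinuousOn A U := hs.continuousOn_fderiv_of_isOpen hU (by simp)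
  have hAs : ContinuousOn (fun u => ContinuousLinearMap.adjoint (A u)) U :=
    (ContinuousLinearMap.adjoint (𝕜 := ℝ) (E := E n) (F := E N)).continuous.comp_continuousOn hAc
  have hG : ContinuousOn (fun u => (ContinuousLinearMap.adjoint (A u)).comp (A u)) U := hAs.clm_comp hAc
  have hGi : ContinuousOn (fun u => Ring.inverse ((ContinuousLinearMap.adjoint (A u)).comp (A u))) U := by
    intro u hu
    obtain ⟨w, hw⟩ := dg_gram_unit (if_imm h hu)
    have h5 : ContinuousAt Ring.inverse ((fun u => (ContinuousLinearMap.adjoint (A u)).comp (A u)) u) := by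
      have := NormedRing.inverse_continuousAt w
      rwa [hw] at this
    exact ContinuousAt.comp_continuousWithinAt (g := Ring.inverse)
      (f := fun u => (ContinuousLinearMap.adjoint (A u)).comp (A u)) h5 (hG u hu)
  have hQ : ContinuousOn (fun u => ContinuousLinearMap.id ℝ (E N) -
      (A u).comp ((Ring.inverse ((ContinuousLinearMap.adjoint (A u)).comp (A u))).comp
        (ContinuousLinearMap.adjoint (A u)))) U :=
    continuousOn_const.sub (hAc.clm_comp (hGi.clm_comp hAs))
  have hQ2 := hQ.comp (if_contInv h) (fun y hy => if_inv_mem hy)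
  have hEq : EqOn (dgPn n X) ((fun u => ContinuousLinearMap.id ℝ (E N) -
      (A u).comp ((Ring.inverse ((ContinuousLinearMap.adjoint (A u)).comp (A u))).comp
        (ContinuousLinearMap.adjoint (A u)))) ∘ Function.invFunOn ψ U) (ψ '' U) := by
    rintro y ⟨u, hu, rfl⟩
    simp only [Function.comp_apply, if_leftInv h hu]
    unfold dgPn
    rw [Submodule.starProjection_orthogonal, dg_gram (if_imm h hu)]
    intro v
    constructor
    · intro hv
      induction hv using Submodule.span_induction with
      | mem w hw => exact (if_tan_iff h hu).1 hw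
      | zero => exact ⟨0, (map_zero _).symm⟩
      | add a b _ _ ha hb =>
        obtain ⟨a', rfl⟩ := ha
        obtain ⟨b', rfl⟩ := hb
        exact ⟨a' + b', (map_add _ _ _).symm⟩
      | smul c a _ ha =>
        obtain ⟨a', rfl⟩ := ha
        exact ⟨c • a', (map_smul _ _ _).symm⟩
    · rintro ⟨a, rfl⟩
      exact Submodule.subset_span (if_tan_mk h hu a)
  have h3 : ContinuousWithinAt (dgPn n X) (ψ '' U) x := (hQ2.congr hEq) x hxU
  rw [hOe] at h3 hxU
  exact (continuousWithinAt_inter (hO.mem_nhds hxU.2)).1 h3

end Claimed.Agent.R314
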